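import Mathlib

/-!
helper99: abstract part of the Johnson bound (WP-J of the S0222 GAP pre-build).

`flag_bound`: a symmetric operator `K` on functions on a finite type which is triangular with
scalar diagonal `μ (k + 1)` along a flag `V 0 ≤ V 1 ≤ … ≤ V n` (`K v - μ (k + 1) • v ∈ V k` for
`v ∈ V (k + 1)`) satisfies `⟨v, K v⟩ ≤ c ⟨v, v⟩` for all `v ∈ V n` orthogonal to `V 0`, as soon as
`μ (k + 1) ≤ c` for all `k < n`.  Plain functions with the sum inner product `dot`; Mathlib only.
-/

set_option autoImplicit false

namespace Crest.Agent.Helper99.Johnson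

section Abstract

variable {X : Type*} [Fintype X]

/-- The sum inner product on real functions on a finite type. -/
def dot (f g : X → ℝ) : ℝ := ∑ x, f x * g x

theorem dot_comm (f g : X → ℝ) : dot f g = dot g f := by
  unfold dot
  exact Finset.sum_congr rfl (fun x _ => mul_comm _ _)

theorem dot_add_left (f g h : X → ℝ) : dot (f + g) h = dot f h + dot g h := by
  unfold dot
  rw [← Finset.sum_add_distrib]
  exact Finset.sum_congr rfl (fun x _ => by simp [add_mul])

theorem dot_add_right (f g h : X → ℝ) : dot f (g + h) = dot f g + dot f h := by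
  rw [dot_comm, dot_add_left, dot_comm g, dot_comm h]

theorem dot_smul_left (a : ℝ) (f g : X → ℝ) : dot (a • f) g = a * dot f g := by
  unfold dot
  rw [Finset.mul_sum]
  exact Finset.sum_congr rfl (fun x _ => by simp [mul_assoc])

theorem dot_smul_right (a : ℝ) (f g : X → ℝ) : dot f (a • g) = a * dot f g := by
  rw [dot_comm, dot_smul_left, dot_comm]

theorem dot_sub_left (f g h : X → ℝ) : dot (f - g) h = dot f h - dot g h := by
  unfold dot
  rw [← Finset.sum_sub_distrib]
  exact Finset.sum_congr rfl (fun x _ => by simp [sub_mul])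

theorem dot_sub_right (f g h : X → ℝ) : dot f (g - h) = dot f g - dot f h := by
  rw [dot_comm, dot_sub_left, dot_comm g, dot_comm h]

theorem dot_self_nonneg (f : X → ℝ) : 0 ≤ dot f f := by
  unfold dot
  exact Finset.sum_nonneg (fun x _ => mul_self_nonneg _)

theorem dot_self_eq_zero {f : X → ℝ} (h : dot f f = 0) : f = 0 := by
  unfold dot at h
  funext x
  have h1 := (Finset.sum_eq_zero_iff_of_nonneg (fun x _ => mul_self_nonneg (f x))).1 h x
    (Finset.mem_univ x)
  simpa using h1

theorem dot_zero_left (g : X → ℝ) : dot (0 : X → ℝ) g = 0 := by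
  unfold dot
  simp

/-- Orthogonal decomposition along a subspace, in plain function space. -/
theorem exists_orth_decomp (V : Submodule ℝ (X → ℝ)) (v : X → ℝ) :
    ∃ p ∈ V, ∀ z ∈ V, dot (v - p) z = 0 := by
  classical
  let e : (X → ℝ) ≃ₗ[ℝ] EuclideanSpace ℝ X := (WithLp.linearEquiv 2 ℝ (X → ℝ)).symm
  obtain ⟨y, hy, z, hz, hv⟩ :=
    Submodule.exists_add_mem_mem_orthogonal (K := V.map e.toLinearMap) (e v)
  obtain ⟨p, hp, rfl⟩ := (Submodule.mem_map).1 hy
  refine ⟨p, hp, ?_⟩
  intro z' hz'
  have h1 : e z' ∈ V.map e.toLinearMap := Submodule.mem_map_of_mem hz'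
  have h2 := (Submodule.mem_orthogonal _ _).1 hz (e z') h1
  have h3 : z = e (v - p) := by
    rw [map_sub]
    have : e.toLinearMap p = e p := rfl
    rw [this] at hv
    rw [hv]
    abel
  rw [h3] at h2
  have h4 : inner ℝ (e z') (e (v - p)) = ∑ x, (v - p) x * z' x := by
    rw [PiLp.inner_apply]
    apply Finset.sum_congr rfl
    intro x _
    rfl
  rw [h4] at h2
  exact h2

/-- The flag bound. -/
theorem flag_bound (K : (X → ℝ) →ₗ[ℝ] (X → ℝ))
    (hK : ∀ f g, dot (K f) g = dot f (K g))
    (V : ℕ → Submodule ℝ (X → ℝ)) (μ : ℕ → ℝ) (c : ℝ) (n : ℕ)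
    (hV0 : ∀ v ∈ V 0, K v ∈ V 0)
    (hmono : ∀ k, k < n → V k ≤ V (k + 1))
    (htri : ∀ k, k < n → ∀ v ∈ V (k + 1), K v - μ (k + 1) • v ∈ V k)
    (hμ : ∀ k, k < n → μ (k + 1) ≤ c) :
    ∀ v ∈ V n, (∀ z ∈ V 0, dot v z = 0) → dot v (K v) ≤ c * dot v v := by
  have hinv : ∀ j, j ≤ n → ∀ v ∈ V j, K v ∈ V j := by
    intro j
    induction j with
    | zero => intro _; exact hV0
    | succ j _ =>
      intro hj v hv
      have h1 := htri j (by omega) v hv
      have h2 : K v = (K v - μ (j + 1) • v) + μ (j + 1) • v := by abel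
      rw [h2]
      exact (V (j + 1)).add_mem (hmono j (by omega) h1) ((V (j + 1)).smul_mem _ hv)
  have hV0le : ∀ j, j ≤ n → V 0 ≤ V j := by
    intro j
    induction j with
    | zero => intro _; exact le_refl _
    | succ j ih => intro hj; exact le_trans (ih (by omega)) (hmono j (by omega))
  have main : ∀ j, j ≤ n → ∀ v ∈ V j, (∀ z ∈ V 0, dot v z = 0) →
      dot v (K v) ≤ c * dot v v := by
    intro j
    induction j with
    | zero =>
      intro _ v hv hz
      have h0 : dot v v = 0 := hz v hv
      have hv0 : v = 0 := dot_self_eq_zero h0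
      subst hv0
      rw [dot_zero_left, dot_zero_left, mul_zero]
    | succ j ih =>
      intro hj v hv hz
      obtain ⟨p, hp, hpw⟩ := exists_orth_decomp (V j) v
      obtain ⟨w, hw⟩ : ∃ w, w = v - p := ⟨_, rfl⟩
      rw [← hw] at hpw
      have hv_eq : v = p + w := by rw [hw]; abel
      have hwV : w ∈ V (j + 1) := by
        rw [hw]
        exact (V (j + 1)).sub_mem hv (hmono j (by omega) hp)
      have hpz : ∀ z ∈ V 0, dot p z = 0 := by
        intro z hz0
        have h1 := hz z hz0
        have h2 := hpw z (hV0le j (by omega) hz0)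
        rw [hv_eq, dot_add_left] at h1
        linarith
      have hKp : K p ∈ V j := hinv j (by omega) p hp
      have hKw := htri j (by omega) w hwV
      have e1 : dot w (K p) = 0 := hpw _ hKp
      have e2 : dot p (K w) = 0 := by
        rw [← hK, dot_comm]
        exact e1
      have e3 : dot w (K w) = μ (j + 1) * dot w w := by
        have h := hpw _ hKw
        rw [dot_sub_right, dot_smul_right] at h
        linarith
      have e4 : dot w p = 0 := hpw p hp
      have e5 : dot v (K v) = dot p (K p) + dot w (K w) := by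
        rw [hv_eq, map_add, dot_add_left, dot_add_right, dot_add_right, e1, e2]
        ring
      have e6 : dot v v = dot p p + dot w w := by
        rw [hv_eq, dot_add_left, dot_add_right, dot_add_right, e4, dot_comm p w, e4]
        ring
      have ihp := ih (by omega) p hp hpz
      have hμ' := hμ j (by omega)
      have hww := dot_self_nonneg w
      rw [e5, e6, e3]
      nlinarith
  exact main n (le_refl n)

end Abstract

end Crest.Agent.Helper99.Johnson
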