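import Mathlib
import Crest.Agent.Helper13.Shuffle.GapStep
import Crest.Agent.Helper99.Shuffle.JFlag

/-!
helper99: the `±1` basis for the Johnson bound (WP-J of the S0222 GAP pre-build), in helper13's
model (`Crest.Agent.Helper13.Gap`): arrangements `c : Equiv.Perm (ι × Bool)`, `c (y, b)` = the card
at position `(y, b)`.

* `sOne a c = ±1` (`+1` iff card `a` lies in row `false` of `c`), `sFun W = ∏ a ∈ W, sOne a`;
* `opRows` = average over the permutations inside the two rows, `opK = opRows ∘ opE ∘ opRows`;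
* `opK_sFun`: the explicit value of `opK (sFun W)`.
-/

set_option autoImplicit false
set_option linter.unusedSectionVars false

namespace Crest.Agent.Helper99.Johnson

open Crest.Agent.Helper13.Gap

variable {ι : Type*} [Fintype ι] [DecidableEq ι]

/-! ### Signs -/

/-- The sign of a row: `+1` for row `false`, `-1` for row `true`. -/
def sg (b : Bool) : ℝ := if b then -1 else 1

theorem sg_xor (a b : Bool) : sg (xor a b) = sg a * sg b := by
  cases a <;> cases b <;> simp [sg]

/-- `sOne a c = +1` iff card `a` lies in row `false` of the arrangement `c`. -/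
def sOne (a : ι × Bool) (c : Equiv.Perm (ι × Bool)) : ℝ := sg (c.symm a).2

/-- The monomial `∏ a ∈ W, sOne a`. -/
def sFun (W : Finset (ι × Bool)) (c : Equiv.Perm (ι × Bool)) : ℝ := ∏ a ∈ W, sOne a c

theorem symm_mul_apply (c k : Equiv.Perm (ι × Bool)) (a : ι × Bool) :
    (c * k).symm a = k.symm (c.symm a) := rfl

theorem rowsE_symm_apply (σ0 σ1 : Equiv.Perm ι) (p : ι × Bool) :
    (rowsE σ0 σ1).symm p = (if p.2 then σ1.symm p.1 else σ0.symm p.1, p.2) := rfl

theorem swapE_symm_apply (s : ι → Bool) (p : ι × Bool) :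
    (swapE s).symm p = (p.1, xor p.2 (s p.1)) := rfl

theorem sOne_rows (a : ι × Bool) (c : Equiv.Perm (ι × Bool)) (σ0 σ1 : Equiv.Perm ι) :
    sOne a (c * rowsE σ0 σ1) = sOne a c := by
  unfold sOne
  rw [symm_mul_apply, rowsE_symm_apply]

theorem sFun_rows (W : Finset (ι × Bool)) (c : Equiv.Perm (ι × Bool)) (σ0 σ1 : Equiv.Perm ι) :
    sFun W (c * rowsE σ0 σ1) = sFun W c := by
  unfold sFun
  exact Finset.prod_congr rfl (fun a _ => sOne_rows a c σ0 σ1)

theorem sFun_empty : sFun (∅ : Finset (ι × Bool)) = fun _ => 1 := by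
  funext c
  simp [sFun]

/-! ### The column-swap average is a symmetric idempotent -/

theorem swapE_mul_self (s : ι → Bool) : swapE s * swapE s = 1 := by
  apply Equiv.ext
  rintro ⟨y, b⟩
  simp only [Equiv.Perm.mul_apply, swapE_apply, Equiv.Perm.one_apply]
  cases b <;> cases s y <;> rfl

theorem swapE_mul (s t : ι → Bool) : swapE s * swapE t = swapE (fun y => xor (s y) (t y)) := by
  apply Equiv.ext
  rintro ⟨y, b⟩
  simp only [Equiv.Perm.mul_apply, swapE_apply]
  cases b <;> cases s y <;> cases t y <;> rfl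

theorem opE_selfadj (f g : Equiv.Perm (ι × Bool) → ℝ) : dot (opE f) g = dot f (opE g) := by
  have h1 : dot (opE f) g =
      ∑ s : ι → Bool, ∑ c : Equiv.Perm (ι × Bool),
        f (c * swapE s) * g c / (2 : ℝ) ^ Fintype.card ι := by
    unfold dot opE
    rw [Finset.sum_comm]
    apply Finset.sum_congr rfl
    intro c _
    rw [Finset.sum_div, Finset.sum_mul]
    apply Finset.sum_congr rfl
    intro s _
    ring
  have h2 : dot f (opE g) =
      ∑ s : ι → Bool, ∑ c : Equiv.Perm (ι × Bool),
        f c * g (c * swapE s) / (2 : ℝ) ^ Fintype.card ι := by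
    unfold dot opE
    rw [Finset.sum_comm]
    apply Finset.sum_congr rfl
    intro c _
    rw [Finset.sum_div, Finset.mul_sum]
    apply Finset.sum_congr rfl
    intro s _
    ring
  rw [h1, h2]
  apply Finset.sum_congr rfl
  intro s _
  rw [← Equiv.sum_comp (Equiv.mulRight (swapE s))
    (fun c => f c * g (c * swapE s) / (2 : ℝ) ^ Fintype.card ι)]
  apply Finset.sum_congr rfl
  intro c _
  simp only [Equiv.coe_mulRight]
  rw [mul_assoc c, swapE_mul_self, mul_one]

theorem opE_idem (f : Equiv.Perm (ι × Bool) → ℝ) : opE (opE f) = opE f := by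
  funext c
  have h : ∀ s : ι → Bool, ∑ t : ι → Bool, f (c * swapE s * swapE t) =
      ∑ t : ι → Bool, f (c * swapE t) := by
    intro s
    let e : (ι → Bool) ≃ (ι → Bool) :=
      { toFun := fun t y => xor (s y) (t y)
        invFun := fun t y => xor (s y) (t y)
        left_inv := by
          intro t
          funext y
          show xor (s y) (xor (s y) (t y)) = t y
          cases s y <;> cases t y <;> rfl
        right_inv := by
          intro t
          funext y
          show xor (s y) (xor (s y) (t y)) = t y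
          cases s y <;> cases t y <;> rfl }
    rw [← Equiv.sum_comp e (fun t => f (c * swapE t))]
    apply Finset.sum_congr rfl
    intro t _
    rw [mul_assoc, swapE_mul]
    rfl
  unfold opE
  simp_rw [h]
  rw [← Finset.sum_div, Finset.sum_const, Finset.card_univ, Fintype.card_fun, Fintype.card_bool,
    nsmul_eq_mul]
  have h2 : ((2 : ℝ) ^ Fintype.card ι) ≠ 0 := by positivity
  push_cast
  field_simp

theorem opE_smul (a : ℝ) (f : Equiv.Perm (ι × Bool) → ℝ) : opE (a • f) = a • opE f := by
  funext c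
  simp only [opE, Pi.smul_apply, smul_eq_mul]
  rw [← Finset.mul_sum, mul_div_assoc]

/-- For any `f`, `∑ (opE f)^2 = ⟨f, opE f⟩`. -/
theorem sum_opE_sq (f : Equiv.Perm (ι × Bool) → ℝ) :
    ∑ c, (opE f c) ^ 2 = dot f (opE f) := by
  have h : dot (opE f) (opE f) = dot f (opE f) := by
    rw [opE_selfadj, opE_idem]
  rw [← h]
  unfold dot
  apply Finset.sum_congr rfl
  intro c _
  ring

/-! ### The average over the row permutations -/

theorem opR_smul {G H : Type*} [Group G] [Fintype G] [Group H] [Fintype H]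
    (ρ : G →* H) (ν : G → ℝ) (a : ℝ) (f : H → ℝ) : opR ρ ν (a • f) = a • opR ρ ν f := by
  funext c
  simp only [opR, Pi.smul_apply, smul_eq_mul, Finset.mul_sum]
  apply Finset.sum_congr rfl
  intro g _
  ring

/-- The projection onto the functions invariant under the permutations inside the rows. -/
noncomputable def opRows (f : Equiv.Perm (ι × Bool) → ℝ) : Equiv.Perm (ι × Bool) → ℝ :=
  opR rhoT (unif (Equiv.Perm ι)) (opR rhoB (unif (Equiv.Perm ι)) f)

theorem opRows_apply (f : Equiv.Perm (ι × Bool) → ℝ) (c : Equiv.Perm (ι × Bool)) :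
    opRows f c = (∑ σ0 : Equiv.Perm ι, ∑ σ1 : Equiv.Perm ι, f (c * rowsE σ0 σ1)) /
      ((Fintype.card ι).factorial : ℝ) ^ 2 := by
  unfold opRows opR unif
  rw [Fintype.card_perm, Finset.sum_div]
  apply Finset.sum_congr rfl
  intro σ0 _
  rw [Finset.mul_sum, Finset.sum_div]
  apply Finset.sum_congr rfl
  intro σ1 _
  rw [mul_assoc c, ← rowsE_eq]
  ring

theorem opRows_add (f g : Equiv.Perm (ι × Bool) → ℝ) :
    opRows (f + g) = opRows f + opRows g := by
  unfold opRows
  rw [opR_add, opR_add]

theorem opRows_smul (a : ℝ) (f : Equiv.Perm (ι × Bool) → ℝ) :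
    opRows (a • f) = a • opRows f := by
  unfold opRows
  rw [opR_smul, opR_smul]

theorem opRows_selfadj (f g : Equiv.Perm (ι × Bool) → ℝ) :
    dot (opRows f) g = dot f (opRows g) := by
  unfold dot opRows
  rw [opR_unif_selfadj, opR_unif_selfadj, opR_comm rhoB rhoT (fun σ τ => rho_comm' σ τ)]

theorem opRows_of_inv (f : Equiv.Perm (ι × Bool) → ℝ)
    (hf : ∀ (σ0 σ1 : Equiv.Perm ι) (c : Equiv.Perm (ι × Bool)), f (c * rowsE σ0 σ1) = f c) :
    opRows f = f := by
  unfold opRows
  rw [opR_of_inv rhoB _ sum_unif f (fun σ c => hf 1 σ c)]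
  exact opR_of_inv rhoT _ sum_unif f (fun σ c => hf σ 1 c)

/-- The symmetric operator whose quadratic form on row-invariant functions is `∑ (opE f)^2`. -/
noncomputable def opK :
    (Equiv.Perm (ι × Bool) → ℝ) →ₗ[ℝ] (Equiv.Perm (ι × Bool) → ℝ) where
  toFun f := opRows (opE (opRows f))
  map_add' f g := by rw [opRows_add, opE_add, opRows_add]
  map_smul' a f := by
    simp only [RingHom.id_apply]
    rw [opRows_smul, opE_smul, opRows_smul]

theorem opK_apply (f : Equiv.Perm (ι × Bool) → ℝ) : opK f = opRows (opE (opRows f)) := rfl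

theorem opK_symm (f g : Equiv.Perm (ι × Bool) → ℝ) : dot (opK f) g = dot f (opK g) := by
  rw [opK_apply, opK_apply, opRows_selfadj, opE_selfadj, opRows_selfadj]

theorem dot_opK_of_inv (f : Equiv.Perm (ι × Bool) → ℝ)
    (hf : ∀ (σ0 σ1 : Equiv.Perm ι) (c : Equiv.Perm (ι × Bool)), f (c * rowsE σ0 σ1) = f c) :
    dot f (opK f) = ∑ c, (opE f c) ^ 2 := by
  rw [opK_apply, opRows_of_inv f hf, ← opRows_selfadj, opRows_of_inv f hf, sum_opE_sq]

end Crest.Agent.Helper99.Johnson
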