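import Mathlib

/-!
helper99: a counting lemma for the Johnson bound (WP-J of the S0222 GAP pre-build).

`nMap A B` = number of permutations `ρ` of `ι` with `ρ(A) = B`;
`nMap A B * C(card ι, |A|) = (card ι)!` if `|A| = |B|` and `0` otherwise; and the number of pairs
`(σ0, σ1)` with `∀ z, σ1 z ∈ B ↔ σ0 z ∈ A` is `(card ι)! * nMap A B`.  Mathlib only.
-/

set_option autoImplicit false
set_option linter.unusedSectionVars false

namespace Crest.Agent.Helper99.Johnson

section Count

variable {ι : Type*} [Fintype ι] [DecidableEq ι]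

/-- The number (as a real) of permutations carrying `A` onto `B`. -/
noncomputable def nMap (A B : Finset ι) : ℝ :=
  ∑ ρ : Equiv.Perm ι, (if A.image ρ = B then (1 : ℝ) else 0)

theorem image_perm_mul (A : Finset ι) (τ ρ : Equiv.Perm ι) :
    A.image (τ * ρ) = (A.image ρ).image τ := by
  rw [Finset.image_image]
  rfl

theorem exists_perm_image_eq (B B' : Finset ι) (h : B.card = B'.card) :
    ∃ τ : Equiv.Perm ι, B.image τ = B' := by
  classical
  let e : {x // x ∈ B} ≃ {x // x ∈ B'} := Finset.equivOfCardEq h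
  refine ⟨e.extendSubtype, ?_⟩
  apply Finset.eq_of_subset_of_card_le
  · intro x hx
    obtain ⟨y, hy, rfl⟩ := Finset.mem_image.1 hx
    exact e.extendSubtype_mem y hy
  · rw [Finset.card_image_of_injective _ (Equiv.injective _), h]

theorem nMap_const (A B B' : Finset ι) (h : B.card = B'.card) : nMap A B' = nMap A B := by
  obtain ⟨τ, hτ⟩ := exists_perm_image_eq B B' h
  unfold nMap
  rw [← Equiv.sum_comp (Equiv.mulLeft τ) (fun ρ => if A.image ρ = B' then (1 : ℝ) else 0)]
  apply Finset.sum_congr rfl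
  intro ρ _
  have h1 : A.image ((Equiv.mulLeft τ) ρ) = B' ↔ A.image ρ = B := by
    show A.image (τ * ρ) = B' ↔ _
    rw [image_perm_mul, ← hτ]
    exact (Finset.image_injective (Equiv.injective τ)).eq_iff
  show (if A.image ((Equiv.mulLeft τ) ρ) = B' then (1 : ℝ) else 0) = _
  by_cases h2 : A.image ρ = B
  · rw [if_pos h2, if_pos (h1.2 h2)]
  · rw [if_neg h2, if_neg (fun h3 => h2 (h1.1 h3))]

theorem nMap_mul_choose (A B : Finset ι) :
    nMap A B * ((Fintype.card ι).choose A.card : ℝ) =
      if A.card = B.card then ((Fintype.card ι).factorial : ℝ) else 0 := by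
  by_cases h : A.card = B.card
  · rw [if_pos h]
    have hsum : ∑ B' ∈ Finset.powersetCard A.card (Finset.univ : Finset ι), nMap A B' =
        ((Fintype.card ι).factorial : ℝ) := by
      unfold nMap
      rw [Finset.sum_comm]
      have h1 : ∀ ρ : Equiv.Perm ι,
          ∑ B' ∈ Finset.powersetCard A.card (Finset.univ : Finset ι),
            (if A.image ρ = B' then (1 : ℝ) else 0) = 1 := by
        intro ρ
        rw [Finset.sum_ite_eq, if_pos]
        rw [Finset.mem_powersetCard]
        exact ⟨Finset.subset_univ _, Finset.card_image_of_injective _ (Equiv.injective ρ)⟩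
      rw [Finset.sum_congr rfl (fun ρ _ => h1 ρ), Finset.sum_const, Finset.card_univ,
        Fintype.card_perm]
      simp
    have hconst : ∀ B' ∈ Finset.powersetCard A.card (Finset.univ : Finset ι),
        nMap A B' = nMap A B := by
      intro B' hB'
      exact nMap_const A B B' (by rw [← h]; exact (Finset.mem_powersetCard.1 hB').2.symm)
    rw [Finset.sum_congr rfl hconst, Finset.sum_const, Finset.card_powersetCard,
      Finset.card_univ, nsmul_eq_mul] at hsum
    rw [mul_comm]
    exact hsum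
  · rw [if_neg h]
    have h0 : nMap A B = 0 := by
      unfold nMap
      apply Finset.sum_eq_zero
      intro ρ _
      rw [if_neg]
      intro hρ
      apply h
      rw [← hρ, Finset.card_image_of_injective _ (Equiv.injective ρ)]
    rw [h0, zero_mul]

theorem pair_iff (A B : Finset ι) (σ0 σ1 : Equiv.Perm ι) :
    (∀ z, (σ1 z ∈ B ↔ σ0 z ∈ A)) ↔ A.image (σ1 * σ0⁻¹) = B := by
  constructor
  · intro hP
    ext y
    rw [Finset.mem_image]
    constructor
    · rintro ⟨x, hx, rfl⟩
      have h1 := (hP (σ0⁻¹ x)).2 (by simpa using hx)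
      simpa using h1
    · intro hy
      refine ⟨σ0 (σ1⁻¹ y), ?_, by simp⟩
      exact (hP (σ1⁻¹ y)).1 (by simpa using hy)
  · intro hI z
    rw [← hI, Finset.mem_image]
    constructor
    · rintro ⟨x, hx, hxz⟩
      have h1 : σ0⁻¹ x = z := σ1.injective (by simpa using hxz)
      have h2 : x = σ0 z := by rw [← h1]; simp
      rw [← h2]
      exact hx
    · intro hz
      exact ⟨σ0 z, hz, by simp⟩

theorem sum_pairs (A B : Finset ι) :
    ∑ σ0 : Equiv.Perm ι, ∑ σ1 : Equiv.Perm ι,
        (if ∀ z, (σ1 z ∈ B ↔ σ0 z ∈ A) then (1 : ℝ) else 0) =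
      ((Fintype.card ι).factorial : ℝ) * nMap A B := by
  have h : ∀ σ0 : Equiv.Perm ι,
      ∑ σ1 : Equiv.Perm ι, (if ∀ z, (σ1 z ∈ B ↔ σ0 z ∈ A) then (1 : ℝ) else 0) = nMap A B := by
    intro σ0
    unfold nMap
    rw [← Equiv.sum_comp (Equiv.mulRight σ0⁻¹) (fun ρ => if A.image ρ = B then (1 : ℝ) else 0)]
    apply Finset.sum_congr rfl
    intro σ1 _
    have h1 : A.image ((Equiv.mulRight σ0⁻¹) σ1) = B ↔ ∀ z, (σ1 z ∈ B ↔ σ0 z ∈ A) :=
      (pair_iff A B σ0 σ1).symm
    show _ = (if A.image ((Equiv.mulRight σ0⁻¹) σ1) = B then (1 : ℝ) else 0)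
    by_cases h2 : ∀ z, (σ1 z ∈ B ↔ σ0 z ∈ A)
    · rw [if_pos h2, if_pos (h1.2 h2)]
    · rw [if_neg h2, if_neg (fun h3 => h2 (h1.1 h3))]
  rw [Finset.sum_congr rfl (fun σ0 _ => h σ0), Finset.sum_const, Finset.card_univ,
    Fintype.card_perm, nsmul_eq_mul]

end Count

end Crest.Agent.Helper99.Johnson
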