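import Mathlib
import Crest.Agent.Helper99.Shuffle.JBasis
import Crest.Agent.Helper99.Shuffle.JCount

/-!
helper99: the explicit value of `opK (sFun W)` (WP-J of the S0222 GAP pre-build).

`opK_sFun_expand`: `opK (sFun W) = ∑ D ⊆ W, phiJ M W D * indF W D`, where `indF W D` is the indicator
that the cards of `W` lying in row `true` are exactly those of `D`, and
`phiJ M W D = (-1)^|D| [2|D| = |W|] / C(M, |D|)`.
-/

set_option autoImplicit false
set_option linter.unusedSectionVars false

namespace Crest.Agent.Helper99.Johnson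

open Crest.Agent.Helper13.Gap

variable {ι : Type*} [Fintype ι] [DecidableEq ι]

/-! ### The swap average of a monomial after a row shuffle -/

theorem prod_over_cards (W : Finset (ι × Bool)) (c : Equiv.Perm (ι × Bool)) (G : ι × Bool → ℝ) :
    ∏ a ∈ W, G (c.symm a) =
      (∏ y : ι, (if c (y, true) ∈ W then G (y, true) else 1)) *
        (∏ y : ι, (if c (y, false) ∈ W then G (y, false) else 1)) := by
  rw [← Finset.prod_ite_mem_eq W (fun a => G (c.symm a))]
  rw [← Equiv.prod_comp c (fun a => if a ∈ W then G (c.symm a) else 1)]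
  simp only [Equiv.symm_apply_apply]
  rw [Fintype.prod_prod_type]
  simp only [Fintype.prod_bool]
  rw [Finset.prod_mul_distrib]

theorem sOne_rows_swap (a : ι × Bool) (c : Equiv.Perm (ι × Bool)) (σ0 σ1 : Equiv.Perm ι)
    (s : ι → Bool) :
    sOne a (c * rowsE σ0 σ1 * swapE s) =
      sOne a c *
        sg (s (if (c.symm a).2 then σ1.symm (c.symm a).1 else σ0.symm (c.symm a).1)) := by
  show sg (xor (c.symm a).2
    (s (if (c.symm a).2 then σ1.symm (c.symm a).1 else σ0.symm (c.symm a).1))) = _
  rw [sg_xor]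
  rfl

theorem sFun_rows_swap (W : Finset (ι × Bool)) (c : Equiv.Perm (ι × Bool))
    (σ0 σ1 : Equiv.Perm ι) (s : ι → Bool) :
    sFun W (c * rowsE σ0 σ1 * swapE s) = sFun W c *
      ∏ z : ι, ((if c (σ1 z, true) ∈ W then sg (s z) else 1) *
        (if c (σ0 z, false) ∈ W then sg (s z) else 1)) := by
  obtain ⟨G, hG⟩ : ∃ G : ι × Bool → ℝ,
      G = fun p => sg (s (if p.2 then σ1.symm p.1 else σ0.symm p.1)) := ⟨_, rfl⟩
  have hG1 : ∀ y : ι, G (y, true) = sg (s (σ1.symm y)) := by
    intro y
    rw [hG]
    simp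
  have hG0 : ∀ y : ι, G (y, false) = sg (s (σ0.symm y)) := by
    intro y
    rw [hG]
    simp
  have h1 : ∀ a ∈ W, sOne a (c * rowsE σ0 σ1 * swapE s) = sOne a c * G (c.symm a) := by
    intro a _
    rw [hG]
    exact sOne_rows_swap a c σ0 σ1 s
  have hT : ∏ y : ι, (if c (y, true) ∈ W then sg (s (σ1.symm y)) else 1) =
      ∏ z : ι, (if c (σ1 z, true) ∈ W then sg (s z) else 1) := by
    rw [← Equiv.prod_comp σ1 (fun y => if c (y, true) ∈ W then sg (s (σ1.symm y)) else 1)]
    simp only [Equiv.symm_apply_apply]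
  have hB : ∏ y : ι, (if c (y, false) ∈ W then sg (s (σ0.symm y)) else 1) =
      ∏ z : ι, (if c (σ0 z, false) ∈ W then sg (s z) else 1) := by
    rw [← Equiv.prod_comp σ0 (fun y => if c (y, false) ∈ W then sg (s (σ0.symm y)) else 1)]
    simp only [Equiv.symm_apply_apply]
  unfold sFun
  rw [Finset.prod_congr rfl h1, Finset.prod_mul_distrib, prod_over_cards W c G]
  simp only [hG1, hG0]
  rw [hT, hB, ← Finset.prod_mul_distrib]

theorem sum_swap_sFun (W : Finset (ι × Bool)) (c : Equiv.Perm (ι × Bool))
    (σ0 σ1 : Equiv.Perm ι) :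
    ∑ s : ι → Bool, sFun W (c * rowsE σ0 σ1 * swapE s) =
      sFun W c * (if ∀ z, (c (σ1 z, true) ∈ W ↔ c (σ0 z, false) ∈ W)
        then (2 : ℝ) ^ Fintype.card ι else 0) := by
  simp_rw [sFun_rows_swap]
  rw [← Finset.mul_sum]
  congr 1
  have h1 := Finset.prod_univ_sum (fun _ : ι => (Finset.univ : Finset Bool))
    (fun z b => (if c (σ1 z, true) ∈ W then sg b else 1) *
      (if c (σ0 z, false) ∈ W then sg b else 1))
  simp only [Fintype.piFinset_univ] at h1
  rw [← h1]
  have h2 : ∀ z : ι, ∑ b : Bool, (if c (σ1 z, true) ∈ W then sg b else 1) *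
      (if c (σ0 z, false) ∈ W then sg b else 1) =
      if (c (σ1 z, true) ∈ W ↔ c (σ0 z, false) ∈ W) then (2 : ℝ) else 0 := by
    intro z
    rw [Fintype.sum_bool]
    by_cases hA : c (σ1 z, true) ∈ W <;> by_cases hB : c (σ0 z, false) ∈ W <;>
      simp [hA, hB, sg] <;> norm_num
  rw [Finset.prod_congr rfl (fun z _ => h2 z), Fintype.prod_ite_zero, Finset.prod_const,
    Finset.card_univ]

/-! ### The value of `opK` on a monomial -/

/-- The columns whose top card lies in `W`. -/
def colsTop (W : Finset (ι × Bool)) (c : Equiv.Perm (ι × Bool)) : Finset ι :=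
  Finset.univ.filter (fun y => c (y, false) ∈ W)

/-- The columns whose bottom card lies in `W`. -/
def colsBot (W : Finset (ι × Bool)) (c : Equiv.Perm (ι × Bool)) : Finset ι :=
  Finset.univ.filter (fun y => c (y, true) ∈ W)

theorem opK_sFun (W : Finset (ι × Bool)) (c : Equiv.Perm (ι × Bool)) :
    opK (sFun W) c = sFun W c *
      (if (colsTop W c).card = (colsBot W c).card
        then 1 / ((Fintype.card ι).choose (colsTop W c).card : ℝ) else 0) := by
  rw [opK_apply, opRows_of_inv (sFun W) (fun σ0 σ1 c => sFun_rows W c σ0 σ1), opRows_apply]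
  have h1 : ∀ σ0 σ1 : Equiv.Perm ι, opE (sFun W) (c * rowsE σ0 σ1) =
      sFun W c * (if ∀ z, (σ1 z ∈ colsBot W c ↔ σ0 z ∈ colsTop W c) then (1 : ℝ) else 0) := by
    intro σ0 σ1
    unfold opE
    rw [sum_swap_sFun]
    have h2 : ((2 : ℝ) ^ Fintype.card ι) ≠ 0 := by positivity
    by_cases hP : ∀ z, (c (σ1 z, true) ∈ W ↔ c (σ0 z, false) ∈ W)
    · have hP' : ∀ z, (σ1 z ∈ colsBot W c ↔ σ0 z ∈ colsTop W c) := by
        intro z
        simp only [colsBot, colsTop, Finset.mem_filter, Finset.mem_univ, true_and]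
        exact hP z
      rw [if_pos hP, if_pos hP']
      field_simp
    · have hP' : ¬ ∀ z, (σ1 z ∈ colsBot W c ↔ σ0 z ∈ colsTop W c) := by
        intro h
        apply hP
        intro z
        have h3 := h z
        simp only [colsBot, colsTop, Finset.mem_filter, Finset.mem_univ, true_and] at h3
        exact h3
      rw [if_neg hP, if_neg hP']
      simp
  simp_rw [h1]
  simp_rw [← Finset.mul_sum]
  rw [sum_pairs (colsTop W c) (colsBot W c)]
  have hF : ((Fintype.card ι).factorial : ℝ) ≠ 0 := by
    exact_mod_cast Nat.factorial_ne_zero _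
  have hC : ((Fintype.card ι).choose (colsTop W c).card : ℝ) ≠ 0 := by
    have := Nat.choose_pos (Finset.card_le_univ (colsTop W c))
    exact_mod_cast this.ne'
  have hn := nMap_mul_choose (colsTop W c) (colsBot W c)
  by_cases h : (colsTop W c).card = (colsBot W c).card
  · rw [if_pos h] at hn
    rw [if_pos h]
    have hn' : nMap (colsTop W c) (colsBot W c) =
        ((Fintype.card ι).factorial : ℝ) / ((Fintype.card ι).choose (colsTop W c).card : ℝ) :=
      (eq_div_iff hC).2 hn
    rw [hn']
    field_simp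
  · rw [if_neg h] at hn
    rw [if_neg h]
    have hn' : nMap (colsTop W c) (colsBot W c) = 0 := by
      rcases mul_eq_zero.1 hn with h0 | h0
      · exact h0
      · exact absurd h0 hC
    rw [hn']
    simp

/-! ### Cards of `W` in a given row -/

theorem card_cols (W : Finset (ι × Bool)) (c : Equiv.Perm (ι × Bool)) (b : Bool) :
    (Finset.univ.filter (fun y : ι => c (y, b) ∈ W)).card =
      (W.filter (fun a => (c.symm a).2 = b)).card := by
  apply Finset.card_bij (fun y _ => c (y, b))
  · intro y hy
    simp only [Finset.mem_filter, Finset.mem_univ, true_and] at hy ⊢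
    exact ⟨hy, by simp⟩
  · intro y _ y' _ h
    exact (Prod.mk.inj (c.injective h)).1
  · intro a ha
    simp only [Finset.mem_filter] at ha
    have h1 : ((c.symm a).1, b) = c.symm a := by rw [← ha.2]
    refine ⟨(c.symm a).1, ?_, ?_⟩
    · simp only [Finset.mem_filter, Finset.mem_univ, true_and]
      rw [h1]
      simpa using ha.1
    · rw [h1]
      simp

theorem sFun_eq_pow (W : Finset (ι × Bool)) (c : Equiv.Perm (ι × Bool)) :
    sFun W c = (-1 : ℝ) ^ (W.filter (fun a => (c.symm a).2 = true)).card := by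
  unfold sFun sOne sg
  rw [Finset.prod_ite, Finset.prod_const, Finset.prod_const_one, mul_one]

/-! ### Indicators -/

/-- `-1` on `D`, `+1` off `D`. -/
noncomputable def eps (D : Finset (ι × Bool)) (a : ι × Bool) : ℝ := if a ∈ D then -1 else 1

/-- For `D ⊆ W`: the indicator that the cards of `W` in row `true` are exactly those of `D`. -/
noncomputable def indF (W D : Finset (ι × Bool)) (c : Equiv.Perm (ι × Bool)) : ℝ :=
  ∏ a ∈ W, ((1 + eps D a * sOne a c) / 2)

theorem indF_eq (W D : Finset (ι × Bool)) (hD : D ⊆ W) (c : Equiv.Perm (ι × Bool)) :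
    indF W D c = if W.filter (fun a => (c.symm a).2 = true) = D then 1 else 0 := by
  unfold indF
  have h1 : ∀ a ∈ W, ((1 + eps D a * sOne a c) / 2) =
      if (a ∈ D ↔ (c.symm a).2 = true) then (1 : ℝ) else 0 := by
    intro a _
    unfold eps sOne sg
    by_cases h : a ∈ D <;> cases hb : (c.symm a).2 <;> simp [h]
  rw [Finset.prod_congr rfl h1, Finset.prod_ite_zero, Finset.prod_const_one]
  have h2 : (∀ a ∈ W, (a ∈ D ↔ (c.symm a).2 = true)) ↔
      W.filter (fun a => (c.symm a).2 = true) = D := by
    constructor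
    · intro h
      ext a
      rw [Finset.mem_filter]
      constructor
      · rintro ⟨ha, hb⟩
        exact (h a ha).2 hb
      · intro ha
        exact ⟨hD ha, (h a (hD ha)).1 ha⟩
    · intro h a ha
      rw [← h, Finset.mem_filter]
      exact ⟨fun h' => h'.2, fun h' => ⟨ha, h'⟩⟩
  by_cases h3 : W.filter (fun a => (c.symm a).2 = true) = D
  · rw [if_pos h3, if_pos (h2.2 h3)]
  · rw [if_neg h3, if_neg (fun h => h3 (h2.1 h))]

/-- The coefficient of `indF W D` in `opK (sFun W)`. -/
noncomputable def phiJ (M : ℕ) (W D : Finset (ι × Bool)) : ℝ :=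
  (-1 : ℝ) ^ D.card * (if 2 * D.card = W.card then 1 / (M.choose D.card : ℝ) else 0)

theorem opK_sFun_expand (W : Finset (ι × Bool)) (c : Equiv.Perm (ι × Bool)) :
    opK (sFun W) c = ∑ D ∈ W.powerset, phiJ (Fintype.card ι) W D * indF W D c := by
  have h1 : ∀ D ∈ W.powerset, phiJ (Fintype.card ι) W D * indF W D c =
      if W.filter (fun a => (c.symm a).2 = true) = D then phiJ (Fintype.card ι) W D else 0 := by
    intro D hD
    rw [indF_eq W D (Finset.mem_powerset.1 hD) c]
    split_ifs <;> simp
  rw [Finset.sum_congr rfl h1, Finset.sum_ite_eq,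
    if_pos (Finset.mem_powerset.2 (Finset.filter_subset _ _))]
  rw [opK_sFun, sFun_eq_pow]
  unfold phiJ
  congr 1
  have hb : (colsBot W c).card = (W.filter (fun a => (c.symm a).2 = true)).card :=
    card_cols W c true
  have ht : (colsTop W c).card = (W.filter (fun a => (c.symm a).2 = false)).card :=
    card_cols W c false
  have hsum : (W.filter (fun a => (c.symm a).2 = true)).card +
      (W.filter (fun a => (c.symm a).2 = false)).card = W.card := by
    have h0 := Finset.card_filter_add_card_filter_not (s := W) (fun a => (c.symm a).2 = true)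
    have h1 : W.filter (fun a => ¬ (c.symm a).2 = true) =
        W.filter (fun a => (c.symm a).2 = false) := by
      apply Finset.filter_congr
      intro a _
      simp
    rw [h1] at h0
    exact h0
  rw [hb, ht]
  by_cases h : (W.filter (fun a => (c.symm a).2 = false)).card =
      (W.filter (fun a => (c.symm a).2 = true)).card
  · rw [if_pos h, if_pos (by omega), h]
  · rw [if_neg h, if_neg (by omega)]

end Crest.Agent.Helper99.Johnson
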