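import Mathlib
import Crest.Agent.Helper99.Shuffle.JCompute

/-!
helper99: THE JOHNSON BOUND (WP-J of the S0222 GAP pre-build), in helper13's model:

`johnson : JohnsonStmt ι` for every finite `ι` with decidable equality: a mean-zero function of the
arrangement that is invariant under the permutations inside the two rows (= a function of the top
set) is contracted by the column-swap average by the factor `1 / (2 * card ι)` (squared `L²` norm).

Proof: the monomials `sFun U` (`|U| ≤ k`) span a flag `flagV ι k`; `opK = opRows ∘ opE ∘ opRows` is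
symmetric and triangular along the flag with diagonal `muJ M k = [k even] C(k, k/2) / (2^k C(M, k/2))`
(`opK_sFun_tri`); every row-invariant function lies in `flagV ι M` (`mem_flag_of_inv`);
`muJ M k ≤ 1/(2M)` for `1 ≤ k ≤ M` (`muJ_le`); conclude with `flag_bound`.
-/

set_option autoImplicit false
set_option linter.unusedSectionVars false

namespace Crest.Agent.Helper99.Johnson

open Crest.Agent.Helper13.Gap

variable {ι : Type*} [Fintype ι] [DecidableEq ι]

/-! ### The flag -/

/-- The flag: the span of the monomials `sFun U` with `|U| ≤ k`. -/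
def flagV (ι : Type*) [Fintype ι] [DecidableEq ι] (k : ℕ) :
    Submodule ℝ (Equiv.Perm (ι × Bool) → ℝ) :=
  Submodule.span ℝ {g | ∃ U : Finset (ι × Bool), U.card ≤ k ∧ g = sFun U}

theorem sFun_mem_flagV (U : Finset (ι × Bool)) (k : ℕ) (h : U.card ≤ k) :
    sFun U ∈ flagV ι k :=
  Submodule.subset_span ⟨U, h, rfl⟩

theorem flagV_mono {j k : ℕ} (h : j ≤ k) : flagV ι j ≤ flagV ι k := by
  apply Submodule.span_mono
  rintro g ⟨U, hU, rfl⟩
  exact ⟨U, le_trans hU h, rfl⟩

theorem indF_expand (W D : Finset (ι × Bool)) :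
    indF W D = (1 / 2 : ℝ) ^ W.card • ∑ U ∈ W.powerset, (∏ a ∈ U, eps D a) • sFun U := by
  funext c
  simp only [Pi.smul_apply, Finset.sum_apply, smul_eq_mul]
  unfold indF sFun
  rw [Finset.prod_div_distrib, Finset.prod_const, Finset.prod_one_add]
  rw [div_eq_mul_inv, mul_comm]
  congr 1
  · rw [one_div, inv_pow]
  · apply Finset.sum_congr rfl
    intro U _
    rw [Finset.prod_mul_distrib]

theorem indF_mem (W D : Finset (ι × Bool)) (k : ℕ) (h : W.card ≤ k) :
    indF W D ∈ flagV ι k := by
  rw [indF_expand]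
  apply Submodule.smul_mem
  apply Submodule.sum_mem
  intro U hU
  apply Submodule.smul_mem
  exact sFun_mem_flagV U k (le_trans (Finset.card_le_card (Finset.mem_powerset.1 hU)) h)

theorem prod_eps (W D : Finset (ι × Bool)) (hD : D ⊆ W) :
    ∏ a ∈ W, eps D a = (-1 : ℝ) ^ D.card := by
  unfold eps
  rw [Finset.prod_ite, Finset.prod_const, Finset.prod_const_one, mul_one]
  congr 2
  ext a
  simp only [Finset.mem_filter]
  exact ⟨fun h => h.2, fun h => ⟨hD h, h⟩⟩

theorem indF_sub_mem (W D : Finset (ι × Bool)) (hD : D ⊆ W) (k : ℕ) (h : W.card = k + 1) :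
    indF W D - ((1 / 2 : ℝ) ^ W.card * (-1 : ℝ) ^ D.card) • sFun W ∈ flagV ι k := by
  have h1 : indF W D - ((1 / 2 : ℝ) ^ W.card * (-1 : ℝ) ^ D.card) • sFun W =
      (1 / 2 : ℝ) ^ W.card • ∑ U ∈ W.powerset.erase W, (∏ a ∈ U, eps D a) • sFun U := by
    rw [indF_expand, ← Finset.add_sum_erase W.powerset _
      (Finset.mem_powerset.2 (Finset.Subset.refl W)), prod_eps W D hD, smul_add, smul_smul]
    abel
  rw [h1]
  apply Submodule.smul_mem
  apply Submodule.sum_mem
  intro U hU
  apply Submodule.smul_mem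
  have hU' := Finset.mem_erase.1 hU
  have hss : U ⊂ W := Finset.ssubset_iff_subset_ne.2 ⟨Finset.mem_powerset.1 hU'.2, hU'.1⟩
  have hlt := Finset.card_lt_card hss
  exact sFun_mem_flagV U k (by omega)

/-! ### The diagonal -/

/-- The diagonal entry of `opK` on level `k`: `[k even] C(k, k/2) / (2^k C(M, k/2))`. -/
noncomputable def muJ (M k : ℕ) : ℝ :=
  (1 / 2 : ℝ) ^ k * ∑ j ∈ Finset.range (k + 1),
    (k.choose j) • (if 2 * j = k then 1 / (M.choose j : ℝ) else 0)

theorem sum_phi_coef (W : Finset (ι × Bool)) :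
    ∑ D ∈ W.powerset, phiJ (Fintype.card ι) W D * ((1 / 2 : ℝ) ^ W.card * (-1 : ℝ) ^ D.card) =
      muJ (Fintype.card ι) W.card := by
  unfold muJ
  rw [← Finset.sum_powerset_apply_card
    (fun j => if 2 * j = W.card then 1 / ((Fintype.card ι).choose j : ℝ) else 0), Finset.mul_sum]
  apply Finset.sum_congr rfl
  intro D _
  unfold phiJ
  have h : (-1 : ℝ) ^ D.card * (-1 : ℝ) ^ D.card = 1 := by
    rw [← mul_pow]
    norm_num
  linear_combination ((1 / 2 : ℝ) ^ W.card *
    (if 2 * D.card = W.card then 1 / ((Fintype.card ι).choose D.card : ℝ) else 0)) * h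

theorem opK_sFun_mem (U : Finset (ι × Bool)) (k : ℕ) (h : U.card ≤ k) :
    opK (sFun U) ∈ flagV ι k := by
  have h1 : opK (sFun U) = ∑ D ∈ U.powerset, phiJ (Fintype.card ι) U D • indF U D := by
    funext c
    rw [opK_sFun_expand]
    simp only [Finset.sum_apply, Pi.smul_apply, smul_eq_mul]
  rw [h1]
  apply Submodule.sum_mem
  intro D _
  exact Submodule.smul_mem _ _ (indF_mem U D k h)

theorem opK_sFun_tri (U : Finset (ι × Bool)) (k : ℕ) (h : U.card = k + 1) :
    opK (sFun U) - muJ (Fintype.card ι) (k + 1) • sFun U ∈ flagV ι k := by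
  have h1 : opK (sFun U) - muJ (Fintype.card ι) (k + 1) • sFun U =
      ∑ D ∈ U.powerset, phiJ (Fintype.card ι) U D •
        (indF U D - ((1 / 2 : ℝ) ^ U.card * (-1 : ℝ) ^ D.card) • sFun U) := by
    funext c
    simp only [Pi.sub_apply, Pi.smul_apply, Finset.sum_apply, smul_eq_mul]
    rw [opK_sFun_expand, ← h, ← sum_phi_coef U]
    simp only [mul_sub, Finset.sum_sub_distrib, Finset.sum_mul]
    congr 1
    apply Finset.sum_congr rfl
    intro D _
    ring
  rw [h1]
  apply Submodule.sum_mem
  intro D hD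
  exact Submodule.smul_mem _ _ (indF_sub_mem U D (Finset.mem_powerset.1 hD) k h)

theorem flag_hV0 : ∀ v ∈ flagV ι 0, opK v ∈ flagV ι 0 := by
  intro v hv
  have h : flagV ι 0 ≤ (flagV ι 0).comap opK := by
    apply Submodule.span_le.2
    rintro g ⟨U, hU, rfl⟩
    exact opK_sFun_mem U 0 hU
  exact h hv

theorem flag_htri (k : ℕ) :
    ∀ v ∈ flagV ι (k + 1), opK v - muJ (Fintype.card ι) (k + 1) • v ∈ flagV ι k := by
  intro v hv
  induction hv using Submodule.span_induction with
  | mem g hg =>
    obtain ⟨U, hU, rfl⟩ := hg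
    by_cases h : U.card = k + 1
    · exact opK_sFun_tri U k h
    · have h' : U.card ≤ k := by omega
      exact Submodule.sub_mem _ (opK_sFun_mem U k h')
        (Submodule.smul_mem _ _ (sFun_mem_flagV U k h'))
  | zero => simp
  | add x y _ _ hx hy =>
    have h : opK (x + y) - muJ (Fintype.card ι) (k + 1) • (x + y) =
        (opK x - muJ (Fintype.card ι) (k + 1) • x) +
          (opK y - muJ (Fintype.card ι) (k + 1) • y) := by
      rw [map_add, smul_add]
      abel
    rw [h]
    exact Submodule.add_mem _ hx hy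
  | smul a x _ hx =>
    have h : opK (a • x) - muJ (Fintype.card ι) (k + 1) • (a • x) =
        a • (opK x - muJ (Fintype.card ι) (k + 1) • x) := by
      rw [map_smul, smul_sub, smul_comm]
    rw [h]
    exact Submodule.smul_mem _ _ hx

/-! ### The bound on the diagonal -/

theorem two_mul_centralBinom_le (r : ℕ) (hr : 1 ≤ r) : 2 * Nat.centralBinom r ≤ 4 ^ r := by
  induction r, hr using Nat.le_induction with
  | base => decide
  | succ r hr ih =>
    have h := Nat.succ_mul_centralBinom_succ r
    have h2 : Nat.centralBinom (r + 1) ≤ 4 * Nat.centralBinom r := by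
      have h3 : (r + 1) * Nat.centralBinom (r + 1) ≤ (r + 1) * (4 * Nat.centralBinom r) := by
        rw [h]
        nlinarith [Nat.zero_le (Nat.centralBinom r)]
      exact Nat.le_of_mul_le_mul_left h3 (Nat.succ_pos r)
    calc 2 * Nat.centralBinom (r + 1) ≤ 2 * (4 * Nat.centralBinom r) := by omega
      _ = 4 * (2 * Nat.centralBinom r) := by ring
      _ ≤ 4 * 4 ^ r := by omega
      _ = 4 ^ (r + 1) := by ring

theorem le_choose_of_two_mul_le (M r : ℕ) (hr : 1 ≤ r) (h : 2 * r ≤ M) : M ≤ M.choose r := by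
  induction r, hr using Nat.le_induction with
  | base => simp
  | succ r hr ih =>
    have h1 := ih (by omega)
    have h2 : M.choose r ≤ M.choose (r + 1) := Nat.choose_le_succ_of_lt_half_left (by omega)
    omega

theorem muJ_le (M k : ℕ) (hk : 1 ≤ k) (hkM : k ≤ M) : muJ M k ≤ 1 / (2 * (M : ℝ)) := by
  have hM : (0 : ℝ) < M := by exact_mod_cast (by omega : 0 < M)
  unfold muJ
  rcases Nat.even_or_odd k with ⟨r, hr⟩ | ⟨r, hr⟩
  · have hr1 : 1 ≤ r := by omega
    have hk2 : k = 2 * r := by omega
    have hsum : ∑ j ∈ Finset.range (k + 1),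
        (k.choose j) • (if 2 * j = k then 1 / (M.choose j : ℝ) else 0) =
        (k.choose r : ℝ) * (1 / (M.choose r : ℝ)) := by
      rw [Finset.sum_eq_single r]
      · rw [if_pos (by omega), nsmul_eq_mul]
      · intro j _ hj
        rw [if_neg (by omega), smul_zero]
      · intro h
        exfalso
        apply h
        rw [Finset.mem_range]
        omega
    rw [hsum]
    have h1 : 2 * Nat.centralBinom r ≤ 4 ^ r := two_mul_centralBinom_le r hr1
    have h2 : M ≤ M.choose r := le_choose_of_two_mul_le M r hr1 (by omega)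
    have h1' : (2 : ℝ) * (k.choose r : ℝ) ≤ 4 ^ r := by
      rw [hk2, ← Nat.centralBinom_eq_two_mul_choose]
      exact_mod_cast h1
    have h2' : (M : ℝ) ≤ (M.choose r : ℝ) := by exact_mod_cast h2
    have hpow : (1 / 2 : ℝ) ^ k = 1 / 4 ^ r := by
      rw [hk2, pow_mul, one_div, one_div, inv_pow, inv_pow]
      norm_num
    rw [hpow]
    have h4 : (0 : ℝ) < 4 ^ r := by positivity
    have hCm : (0 : ℝ) < (M.choose r : ℝ) := lt_of_lt_of_le hM h2'
    have hC0 : (0 : ℝ) ≤ (k.choose r : ℝ) := by positivity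
    have e : 1 / (4 : ℝ) ^ r * ((k.choose r : ℝ) * (1 / (M.choose r : ℝ))) =
        (k.choose r : ℝ) / (4 ^ r * (M.choose r : ℝ)) := by
      field_simp
    rw [e, div_le_div_iff₀ (by positivity) (by positivity)]
    nlinarith [mul_nonneg (sub_nonneg.2 h1') hM.le, mul_nonneg h4.le (sub_nonneg.2 h2')]
  · have hsum : ∑ j ∈ Finset.range (k + 1),
        (k.choose j) • (if 2 * j = k then 1 / (M.choose j : ℝ) else 0) = 0 := by
      apply Finset.sum_eq_zero
      intro j _
      rw [if_neg (by omega), smul_zero]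
    rw [hsum, mul_zero]
    positivity

/-! ### Row-invariant functions are polynomials of degree `≤ card ι` in the signs -/

/-- The set of cards in row `false`. -/
def topSet (c : Equiv.Perm (ι × Bool)) : Finset (ι × Bool) :=
  Finset.univ.image (fun y : ι => c (y, false))

theorem mem_topSet (c : Equiv.Perm (ι × Bool)) (a : ι × Bool) :
    a ∈ topSet c ↔ (c.symm a).2 = false := by
  unfold topSet
  rw [Finset.mem_image]
  constructor
  · rintro ⟨y, _, rfl⟩
    simp
  · intro h
    have h1 : ((c.symm a).1, false) = c.symm a := by rw [← h]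
    refine ⟨(c.symm a).1, Finset.mem_univ _, ?_⟩
    rw [h1]
    simp

theorem card_topSet (c : Equiv.Perm (ι × Bool)) : (topSet c).card = Fintype.card ι := by
  unfold topSet
  rw [Finset.card_image_of_injective, Finset.card_univ]
  intro y y' h
  exact (Prod.mk.inj (c.injective h)).1

theorem eq_rowsE_of_rows (k : Equiv.Perm (ι × Bool)) (hk : ∀ p, (k p).2 = p.2) :
    ∃ σ0 σ1 : Equiv.Perm ι, k = rowsE σ0 σ1 := by
  have hinj : ∀ b : Bool, Function.Injective (fun y : ι => (k (y, b)).1) := by
    intro b y y' h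
    have h1 : k (y, b) = k (y', b) := Prod.ext h (by rw [hk, hk])
    exact (Prod.mk.inj (k.injective h1)).1
  have hbij : ∀ b : Bool, Function.Bijective (fun y : ι => (k (y, b)).1) :=
    fun b => Finite.injective_iff_bijective.1 (hinj b)
  refine ⟨Equiv.ofBijective _ (hbij false), Equiv.ofBijective _ (hbij true), ?_⟩
  apply Equiv.ext
  rintro ⟨y, b⟩
  cases b
  · rw [rowsE_apply]
    exact Prod.ext rfl (hk (y, false))
  · rw [rowsE_apply]
    exact Prod.ext rfl (hk (y, true))

theorem exists_rows_of_topSet_eq (c c0 : Equiv.Perm (ι × Bool)) (h : topSet c0 = topSet c) :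
    ∃ σ0 σ1 : Equiv.Perm ι, c0 = c * rowsE σ0 σ1 := by
  have hk : ∀ p : ι × Bool, ((c⁻¹ * c0) p).2 = p.2 := by
    rintro ⟨y, b⟩
    show (c.symm (c0 (y, b))).2 = b
    cases b
    · have h1 : c0 (y, false) ∈ topSet c := by
        rw [← h, mem_topSet]
        simp
      exact (mem_topSet c _).1 h1
    · have h1 : c0 (y, true) ∉ topSet c := by
        rw [← h, mem_topSet]
        simp
      rw [mem_topSet] at h1
      simpa using h1
  obtain ⟨σ0, σ1, hσ⟩ := eq_rowsE_of_rows (c⁻¹ * c0) hk
  refine ⟨σ0, σ1, ?_⟩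
  rw [← hσ, mul_inv_cancel_left]

theorem mem_flag_of_inv (f : Equiv.Perm (ι × Bool) → ℝ)
    (hf : ∀ (σ0 σ1 : Equiv.Perm ι) (c : Equiv.Perm (ι × Bool)), f (c * rowsE σ0 σ1) = f c) :
    f ∈ flagV ι (Fintype.card ι) := by
  classical
  obtain ⟨F, hFdef⟩ : ∃ F : Finset (ι × Bool) → ℝ, F = fun S =>
      if h : ∃ c0, topSet c0 = S then f (Classical.choose h) else 0 := ⟨_, rfl⟩
  have hF : ∀ c, F (topSet c) = f c := by
    intro c
    have hex : ∃ c0, topSet c0 = topSet c := ⟨c, rfl⟩
    rw [hFdef]
    show (if h : ∃ c0, topSet c0 = topSet c then f (Classical.choose h) else 0) = f c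
    rw [dif_pos hex]
    obtain ⟨σ0, σ1, hσ⟩ :=
      exists_rows_of_topSet_eq c (Classical.choose hex) (Classical.choose_spec hex)
    rw [hσ, hf]
  have hrep : f = ∑ S ∈ Finset.powersetCard (Fintype.card ι) (Finset.univ : Finset (ι × Bool)),
      F S • indF S ∅ := by
    funext c
    simp only [Finset.sum_apply, Pi.smul_apply, smul_eq_mul]
    rw [Finset.sum_eq_single (topSet c)]
    · rw [hF, indF_eq (topSet c) ∅ (Finset.empty_subset _) c, if_pos, mul_one]
      apply Finset.filter_eq_empty_iff.2
      intro a ha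
      rw [mem_topSet] at ha
      simp [ha]
    · intro S hS hne
      rw [indF_eq S ∅ (Finset.empty_subset _) c, if_neg, mul_zero]
      intro hemp
      apply hne
      apply Finset.eq_of_subset_of_card_le
      · intro a ha
        rw [mem_topSet]
        have h1 := Finset.filter_eq_empty_iff.1 hemp ha
        simpa using h1
      · rw [card_topSet, (Finset.mem_powersetCard.1 hS).2]
    · intro hnot
      exfalso
      apply hnot
      rw [Finset.mem_powersetCard]
      exact ⟨Finset.subset_univ _, card_topSet c⟩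
  rw [hrep]
  apply Submodule.sum_mem
  intro S hS
  apply Submodule.smul_mem
  exact indF_mem S ∅ _ (le_of_eq (Finset.mem_powersetCard.1 hS).2)

/-! ### The Johnson bound -/

/-- **WP-J**: the Johnson bound in helper13's model. -/
theorem johnson : JohnsonStmt ι := by
  intro f hinv hsum
  have hfV : f ∈ flagV ι (Fintype.card ι) := mem_flag_of_inv f hinv
  have hz : ∀ z ∈ flagV ι 0, dot f z = 0 := by
    intro z hz
    induction hz using Submodule.span_induction with
    | mem g hg =>
      obtain ⟨U, hU, rfl⟩ := hg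
      have hU0 : U = ∅ := Finset.card_eq_zero.1 (Nat.le_zero.1 hU)
      rw [hU0, sFun_empty]
      unfold dot
      simpa using hsum
    | zero =>
      unfold dot
      simp
    | add x y _ _ hx hy => rw [dot_add_right, hx, hy, add_zero]
    | smul a x _ hx => rw [dot_smul_right, hx, mul_zero]
  have hb := flag_bound opK opK_symm (flagV ι) (muJ (Fintype.card ι))
    (1 / (2 * (Fintype.card ι : ℝ))) (Fintype.card ι)
    flag_hV0 (fun k _ => flagV_mono (Nat.le_succ k)) (fun k _ => flag_htri k)
    (fun k hk => muJ_le (Fintype.card ι) (k + 1) (by omega) (by omega)) f hfV hz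
  rw [dot_opK_of_inv f hinv] at hb
  have h2 : dot f f = ∑ c, (f c) ^ 2 := by
    unfold dot
    exact Finset.sum_congr rfl (fun c _ => by ring)
  rw [h2] at hb
  exact hb

end Crest.Agent.Helper99.Johnson
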