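import Mathlib
import Crest.Agent.Helper54.Shuffle.GapDefs

/-!
helper99: package (W2) of the Lean pre-build of (GAP) for S0222 (Thorp shuffle).

* `singleUniform_one_one : SingleUniform 1 1` and `contracts_one_one : Contracts 1 1 0`
  (two cards, one fair switch);
* `singleUniform_step : PassRec m' t → SingleUniform m' t → SingleUniform (2 * m') (t + 1)`
  (single-card uniformity propagates through the pass recursion).

All statements are literally in the shapes fixed by `Crest.Agent.Helper54.Shuffle.GapDefs`.
-/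

set_option autoImplicit false

namespace Crest.Agent.Helper99.Shuffle

open Crest.ProbabilityR.Shuffle Crest.Agent.Helper13.Shuffle Crest.Agent.Helper3.Shuffle
  Crest.Agent.Helper54.Shuffle

/-! ### General facts about `expect` -/

theorem card_tables (m t : ℕ) :
    (Fintype.card (Fin t → Fin m → Bool) : ℝ) = (2 : ℝ) ^ (m * t) := by
  simp [Fintype.card_pi, pow_mul]

theorem expect_const (m t : ℕ) (a : ℝ) : expect m t (fun _ => a) = a := by
  unfold expect
  rw [Finset.sum_const, Finset.card_univ, nsmul_eq_mul, card_tables]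
  have h : (2 : ℝ) ^ (m * t) ≠ 0 := by positivity
  field_simp

theorem expect_mul_const (m t : ℕ) (f : Equiv.Perm (Fin (2 * m)) → ℝ) (a : ℝ) :
    expect m t (fun k => f k * a) = expect m t f * a := by
  unfold expect
  rw [← Finset.sum_mul, div_mul_eq_mul_div]

/-! ### Two cards, one switch -/

theorem permOf_one_one_val (b : Bool) (y : Fin (2 * 1)) :
    ((permOf 1 1 (fun _ _ => b)) y).val = if xor (decide (1 ≤ y.val)) b then 1 else 0 := by
  rw [coe_permOf, iterPos_succ, iterPos_zero, stepPos_val]
  simp [Nat.mod_one]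

theorem expect_one_one (f : Equiv.Perm (Fin (2 * 1)) → ℝ) :
    expect 1 1 f =
      (f (permOf 1 1 (fun _ _ => false)) + f (permOf 1 1 (fun _ _ => true))) / 2 := by
  unfold expect
  let e : (Fin 1 → Fin 1 → Bool) ≃ Bool :=
    (Equiv.funUnique (Fin 1) (Fin 1 → Bool)).trans (Equiv.funUnique (Fin 1) Bool)
  have h := Equiv.sum_comp e.symm (fun cs : Fin 1 → Fin 1 → Bool => f (permOf 1 1 cs))
  rw [← h, Fintype.sum_bool]
  have h1 : e.symm true = fun _ _ => true := by
    funext i j; rfl
  have h0 : e.symm false = fun _ _ => false := by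
    funext i j; rfl
  rw [h1, h0]
  norm_num
  ring

theorem singleUniform_one_one : SingleUniform 1 1 := by
  unfold SingleUniform
  intro y z
  rw [expect_one_one]
  have hy := y.isLt
  have hz := z.isLt
  have e0 : ((permOf 1 1 (fun _ _ => false)) y = z) ↔ ((if decide (1 ≤ y.val) then 1 else 0) = z.val) := by
    rw [Fin.ext_iff, permOf_one_one_val]
    simp
  have e1 : ((permOf 1 1 (fun _ _ => true)) y = z) ↔ ((if decide (1 ≤ y.val) then 0 else 1) = z.val) := by
    rw [Fin.ext_iff, permOf_one_one_val]
    by_cases h : 1 ≤ y.val <;> simp [h]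
  simp only [e0, e1]
  by_cases h : 1 ≤ y.val
  · simp only [h, decide_true, if_true]
    by_cases hz0 : z.val = 0
    · simp [hz0]
    · have hz1 : z.val = 1 := by omega
      simp [hz1]
  · simp only [h, decide_false, Bool.false_eq_true, if_false]
    by_cases hz0 : z.val = 0
    · simp [hz0]
    · have hz1 : z.val = 1 := by omega
      simp [hz1]

theorem permOf_one_one_ne :
    permOf 1 1 (fun _ _ => false) ≠ permOf 1 1 (fun _ _ => true) := by
  intro h
  have h1 := congrArg (fun k : Equiv.Perm (Fin (2 * 1)) => (k ⟨0, by norm_num⟩).val) h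
  simp only [permOf_one_one_val] at h1
  simp at h1

theorem card_perm_two : Fintype.card (Equiv.Perm (Fin (2 * 1))) = 2 := by
  rw [Fintype.card_perm, Fintype.card_fin]
  rfl

theorem contracts_one_one : Contracts 1 1 0 := by
  unfold Contracts
  intro ψ hψ
  rw [zero_mul]
  apply le_of_eq
  apply Finset.sum_eq_zero
  intro g _
  have hne : (permOf 1 1 (fun _ _ => false))⁻¹ * g ≠ (permOf 1 1 (fun _ _ => true))⁻¹ * g := by
    intro h
    exact permOf_one_one_ne (inv_injective (mul_right_cancel h))
  have huniv : ({(permOf 1 1 (fun _ _ => false))⁻¹ * g, (permOf 1 1 (fun _ _ => true))⁻¹ * g} :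
      Finset (Equiv.Perm (Fin (2 * 1)))) = Finset.univ :=
    Finset.eq_univ_of_card _ (by rw [Finset.card_pair hne, card_perm_two])
  rw [← huniv, Finset.sum_pair hne] at hψ
  have h0 : opL 1 1 ψ g = 0 := by
    rw [opL_eq_expect, expect_one_one, hψ, zero_div]
  rw [h0]
  norm_num

/-! ### Single-card uniformity through the pass recursion -/

theorem mkPos_eq_iff {M : ℕ} (u v : Fin M) (a b : Bool) :
    mkPos u a = mkPos v b ↔ u = v ∧ a = b := by
  constructor
  · intro h
    have h1 := congrArg colOf h
    have h2 := congrArg rowOf h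
    rw [colOf_mkPos, colOf_mkPos] at h1
    rw [rowOf_mkPos, rowOf_mkPos] at h2
    exact ⟨h1, h2⟩
  · rintro ⟨rfl, rfl⟩
    rfl

theorem swap_rows_apply_eq_iff {M : ℕ} (c : Fin M → Bool) (π0 π1 : Equiv.Perm (Fin M))
    (y z : Fin (2 * M)) :
    (swapCols c * rows π0 π1) y = z ↔
      (if rowOf y then π1 else π0) (colOf y) = colOf z ∧
        xor (rowOf y) (c (colOf z)) = rowOf z := by
  rw [Equiv.Perm.mul_apply, rows_apply, swapCols_mkPos]
  constructor
  · intro h
    have h1 := congrArg colOf h
    rw [colOf_mkPos] at h1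
    have h2 := congrArg rowOf h
    rw [rowOf_mkPos] at h2
    refine ⟨h1, ?_⟩
    rw [← h1]
    exact h2
  · rintro ⟨h1, h2⟩
    rw [h1, h2, mkPos_colOf_rowOf]

theorem sum_ind_half {M : ℕ} (z0 : Fin M) (r s : Bool) :
    ∑ c : Fin M → Bool, (if xor r (c z0) = s then (1 : ℝ) else 0) = (2 : ℝ) ^ M / 2 := by
  classical
  let φ : (Fin M → Bool) → (Fin M → Bool) := fun c => Function.update c z0 (!(c z0))
  have hφz : ∀ c : Fin M → Bool, φ c z0 = !(c z0) := by
    intro c
    simp [φ]
  have hφ : Function.Involutive φ := by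
    intro c
    funext i
    by_cases h : i = z0
    · subst h
      rw [hφz, hφz, Bool.not_not]
    · simp [φ, Function.update_of_ne h]
  have h1 : ∑ c : Fin M → Bool, (if xor r (φ c z0) = s then (1 : ℝ) else 0)
      = ∑ c : Fin M → Bool, (if xor r (c z0) = s then (1 : ℝ) else 0) :=
    Equiv.sum_comp hφ.toPerm (fun c => if xor r (c z0) = s then (1 : ℝ) else 0)
  have h2 : ∀ c : Fin M → Bool, (if xor r (c z0) = s then (1 : ℝ) else 0)
      + (if xor r (φ c z0) = s then (1 : ℝ) else 0) = 1 := by
    intro c
    rw [hφz]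
    cases r <;> cases c z0 <;> cases s <;> simp
  have h3 : ∑ c : Fin M → Bool, ((if xor r (c z0) = s then (1 : ℝ) else 0)
      + (if xor r (φ c z0) = s then (1 : ℝ) else 0)) = (2 : ℝ) ^ M := by
    simp_rw [h2]
    simp [Fintype.card_pi]
  rw [Finset.sum_add_distrib, h1] at h3
  linarith

theorem singleUniform_step (m' t : ℕ) (hrec : PassRec m' t) (hsu : SingleUniform m' t) :
    SingleUniform (2 * m') (t + 1) := by
  unfold SingleUniform at hsu ⊢
  intro y z
  have hm : 0 < m' := by
    have := y.isLt
    omega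
  rw [hrec]
  have hinner : ∀ c : Fin (2 * m') → Bool,
      expect m' t (fun π0 => expect m' t (fun π1 =>
        (if (swapCols c * rows π0 π1) y = z then (1 : ℝ) else 0)))
      = (1 / (2 * (m' : ℝ))) *
          (if xor (rowOf y) (c (colOf z)) = rowOf z then (1 : ℝ) else 0) := by
    intro c
    have hpt : ∀ π0 π1 : Equiv.Perm (Fin (2 * m')),
        (if (swapCols c * rows π0 π1) y = z then (1 : ℝ) else 0)
        = (if (if rowOf y then π1 else π0) (colOf y) = colOf z then (1 : ℝ) else 0)
          * (if xor (rowOf y) (c (colOf z)) = rowOf z then (1 : ℝ) else 0) := by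
      intro π0 π1
      simp only [swap_rows_apply_eq_iff]
      by_cases hP : (if rowOf y then π1 else π0) (colOf y) = colOf z <;>
        by_cases hQ : xor (rowOf y) (c (colOf z)) = rowOf z <;> simp [hP, hQ]
    simp_rw [hpt]
    cases hr : rowOf y
    · simp only [Bool.false_eq_true, if_false]
      simp only [expect_const]
      rw [expect_mul_const, hsu]
    · simp only [if_true]
      simp only [expect_mul_const, hsu]
      rw [expect_const]
  simp_rw [hinner]
  rw [← Finset.mul_sum, sum_ind_half]
  have h2 : (2 : ℝ) ^ (2 * m') ≠ 0 := by positivity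
  have hm' : (m' : ℝ) ≠ 0 := by exact_mod_cast hm.ne'
  push_cast
  field_simp

end Crest.Agent.Helper99.Shuffle
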